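import Vale.Agent.P092LT.Lift
import Mathlib.LinearAlgebra.Matrix.ToLinearEquiv

/-!
P092, higher rank (helper26): the speed preserves the lattice of the lengths.
-/

set_option linter.all false

open MeasureTheory ContinuousLinearMap Matrix

namespace Vale.Agent.P092LT

open Vale.Agent.P092CP Vale.Agent.P092RD Vale.Agent.P092RD.POM
open Vale.Agent.P092GK Vale.Agent.P092TH Vale.Agent.P092HR

variable {k : Type} [NontriviallyNormedField k] {G K : Type} [Group G] [TopologicalSpace G]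
  [IsTopologicalGroup G] [LocallyCompactSpace G] [SecondCountableTopology G] [T2Space G]
  [MeasurableSpace G] [BorelSpace G] [NormedAddCommGroup K] [InnerProductSpace ℂ K]
  [CompleteSpace K] {μ : Measure G} [μ.IsHaarMeasure] {W : Set (K →L[ℂ] K)} {r : ℕ}
  {F : FlD k G r} {C : Cpl μ μ W} {E : POM (YY F) K} {L : Aa r →ₗ[ℝ] Aa r}

theorem lat_td (g : Gr F) (hL : Lat F) (hE : Eb F C E) {z : ℕ → G} {θ₀ : POM (ZZ F) K}
    (h₀ : T0 F C z L E θ₀) : ∀ p ∈ F.Z, ∃ q ∈ F.Z, F.ℓ q = L (F.ℓ p) := fun p hp => by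
  have h := g.fl
  obtain ⟨b, hb⟩ := hL
  refine (hb _).2 fun i => ?_
  have hτ : ∀ z ∈ F.Z, ∃ m : ℤ, b.coord i (F.ℓ z) = m := fun z hz => (hb _).1 ⟨z, hz, rfl⟩ i
  have bk := bd_kap h hτ
  have h1 := h₀.spd _ _ p (h.z_mem_P hp _) _ (kap_mem h hE hτ)
  rw [hE.inv.inv p (h.z_mem_P hp _) _ bk] at h1
  have h2 : ‖E.f (kap F (b.coord i)) C.s.Ω‖ = 1 := by
    rw [← pow_eq_one_iff_of_nonneg (norm_nonneg _) two_ne_zero, hE.isP.norm_sq bk]
    simp [kap, norm_ex, Measure.real, hE.isP.ν_univ, C.s.nΩ]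
  obtain ⟨m, hm⟩ := Complex.exp_eq_one_iff.1 (smul_inj h2 (h1.symm.trans (one_smul _ _).symm))
  refine ⟨m, Complex.ofReal_injective (mul_left_cancel₀ Complex.two_pi_I_ne_zero ?_)⟩
  simp only [b.coord_apply] at hm
  push_cast at hm ⊢
  linear_combination hm

omit [TopologicalSpace G] [IsTopologicalGroup G] [LocallyCompactSpace G] [SecondCountableTopology G]
  [T2Space G] [MeasurableSpace G] [BorelSpace G] in
theorem inj_td (hL : Lat F) (h1 : ∀ p ∈ F.Z, ∃ q ∈ F.Z, F.ℓ q = L (F.ℓ p))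
    (h2 : ∀ a ∈ F.Z, L (F.ℓ a) = 0 → F.ℓ a = 0) : Function.Injective L := by
  obtain ⟨b, hb⟩ := hL
  have h3 : ∀ i j, ∃ m : ℤ, LinearMap.toMatrix b b L i j = m := fun i j => by
    obtain ⟨p, hp, e⟩ := (hb (b j)).2 fun i => ⟨if j = i then 1 else 0, by
      simp [Finsupp.single_apply]⟩
    rw [LinearMap.toMatrix_apply, ← e]
    exact (hb _).1 (h1 p hp) i
  choose M hM using h3
  have e : LinearMap.toMatrix b b L = (Int.castRingHom ℝ).mapMatrix (of M) := Matrix.ext hM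
  refine (injective_iff_map_eq_zero L).2 fun x hx => by_contra fun h0 => ?_
  have h4 := exists_mulVec_eq_zero_iff.1 ⟨b.repr x, fun e => h0 (b.ext_elem fun i => by
    simpa using congrFun e i), by rw [LinearMap.toMatrix_mulVec_repr b b L x, hx]; simp⟩
  rw [e, ← RingHom.map_det, eq_intCast, Int.cast_eq_zero] at h4
  obtain ⟨v, hv, h5⟩ := exists_mulVec_eq_zero_iff.2 h4
  have h6 : ⇑(b.repr (b.equivFun.symm fun i => (v i : ℝ))) = fun i => (v i : ℝ) :=
    b.equivFun.apply_symm_apply _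
  obtain ⟨p, hp, e'⟩ := (hb _).2 fun i => ⟨v i, congrFun h6 i⟩
  have h7 := h2 p hp (b.ext_elem fun i => by
    rw [e', ← LinearMap.toMatrix_mulVec_repr b b L, h6, e]
    simpa [mulVec, dotProduct] using congrArg (Int.cast (R := ℝ)) (congrFun h5 i))
  rw [← e', h7] at h6
  exact hv (funext fun i => by simpa using (congrFun h6 i).symm)

end Vale.Agent.P092LT
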