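import Vale.Agent.P092LT.Abs
import Vale.Agent.P092HR.Defs

/-!
P092, higher rank (helper26): the projection valued heights on the full cone when the lengths form a
lattice.
-/

set_option linter.all false

open scoped InnerProductSpace
open MeasureTheory Filter Topology ContinuousLinearMap Set

namespace Vale.Agent.P092LT

open Vale.Agent.P092CP Vale.Agent.P092RD Vale.Agent.P092RD.POM Vale.Agent.P092SB
open Vale.Agent.P092GK Vale.Agent.P092TH Vale.Agent.P092HR

variable {k : Type} [NontriviallyNormedField k] {G K : Type} [Group G] [TopologicalSpace G]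
  [IsTopologicalGroup G] [LocallyCompactSpace G] [SecondCountableTopology G] [T2Space G]
  [MeasurableSpace G] [BorelSpace G] [NormedAddCommGroup K] [InnerProductSpace ℂ K]
  [CompleteSpace K] {μ : Measure G} [μ.IsHaarMeasure] {W : Set (K →L[ℂ] K)} {r : ℕ}
  {F : FlD k G r} {C : Cpl μ μ W} {E : POM (YY F) K}

theorem polishY (h : Fl F) (θ : Finset (Fin r)) : PolishSpace (F.Y θ) := by
  haveI := h.isClosed_P θ
  haveI := h.compactY θ
  letI := TopologicalSpace.metrizableSpaceMetric (F.Y θ)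
  infer_instance

theorem meas_cc (h : Fl F) (τ : Aa r →ₗ[ℝ] ℝ) (g : G) : Measurable fun y : YY F => τ (F.cc g y) :=
  (τ.continuous_of_finiteDimensional.comp (h.cont_cc.comp (Continuous.prodMk_right g))).measurable

/-- a projection valued covariant measure over `E` has graded exponentials -/
theorem mem_Xt {X : Type} [NormedAddCommGroup X] [NormedSpace ℝ X] (h : Fl F) {H : Subgroup G}
    {t : Aa r →ₗ[ℝ] X} (e : F.Ht H t) {θ : POM (G ⧸ H) K} (hθ : θ.IsP) (i : Inv C F.Up θ)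
    (d : ∀ φ, Bd φ → θ.f (φ ∘ F.dir _ _) = E.f φ) (τ : X →ₗ[ℝ] ℝ)
    (m : Measurable fun ζ => τ (F.hq H t ζ)) (s : ℝ) :
    θ.f (ex s fun ζ => τ (F.hq H t ζ)) ∈ Xt F C E (τ ∘ₗ t) s := by
  have md := (h.cont_dir e Finset.univ).measurable
  have b := bd_ex s m
  refine ⟨i.cm _ b, fun φ hφ => ?_, fun u hu => i.inv u hu _ b, fun g => ?_⟩
  · rw [← d φ hφ, hθ.comm b (bd_comp hφ md)]
  · have b' := bd_ex s (meas_cc h (τ ∘ₗ t) g⁻¹)
    rw [i.cov g _ b, ← d _ b', ← hθ.mul _ _ (bd_comp b' md) b]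
    congr 1
    ext ζ
    simp [ex, h.hq_smul e, mul_add, add_mul, Complex.exp_add]

/-- the class of the height modulo the lattice -/
noncomputable def kap (F : FlD k G r) (τ : Aa r →ₗ[ℝ] ℝ) : YY F → ℂ :=
  ex (2 * Real.pi) fun y => τ (F.co (F.ht y.out))

theorem kap_mk (h : Fl F) {τ : Aa r →ₗ[ℝ] ℝ} (hτ : ∀ z ∈ F.Z, ∃ m : ℤ, τ (F.ℓ z) = m) (g : G) :
    kap F τ (g : YY F) = ex (2 * Real.pi) (fun g => τ (F.co (F.ht g))) g := by
  obtain ⟨p, hp, e⟩ := out_mem (PP F) g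
  obtain ⟨z, hz, u, hu, rfl⟩ := h.P_univ.1 hp
  obtain ⟨m, hm⟩ := hτ z hz
  simp only [kap, ex]
  rw [e, ← mul_assoc g, h.ht_up hu, h.co_ht_P (h.z_mem_P hz _), map_add, hm,
    Complex.exp_eq_exp_iff_exists_int]
  exact ⟨m, by push_cast; ring⟩

theorem bd_kap (h : Fl F) {τ : Aa r →ₗ[ℝ] ℝ} (hτ : ∀ z ∈ F.Z, ∃ m : ℤ, τ (F.ℓ z) = m) :
    Bd (kap F τ) := by
  refine ⟨(cont_quo ?_).measurable, 1, fun y => (norm_ex _ _ y).le⟩
  have := τ.continuous_of_finiteDimensional.comp ((FlD.cont_co (F := F)).comp h.cont_ht)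
  simp only [kap_mk h hτ, ex]
  exact Complex.continuous_exp.comp ((continuous_const.mul
    (Complex.continuous_ofReal.comp this)).mul continuous_const)

theorem kap_mem (h : Fl F) (hE : Eb F C E) {τ : Aa r →ₗ[ℝ] ℝ}
    (hτ : ∀ z ∈ F.Z, ∃ m : ℤ, τ (F.ℓ z) = m) : E.f (kap F τ) ∈ Xt F C E τ (2 * Real.pi) := by
  have b := bd_kap h hτ
  refine ⟨hE.inv.cm _ b, fun φ hφ => hE.isP.comm b hφ,
    fun u hu => hE.inv.inv u (h.up_mem_P hu _) _ b, fun g => ?_⟩
  rw [hE.inv.cov g _ b, ← hE.isP.mul _ _ (bd_ex _ (meas_cc h τ g⁻¹)) b]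
  congr 1
  ext y
  obtain ⟨x, rfl⟩ := QuotientGroup.mk_surjective y
  rw [Pi.mul_apply, mk_smul, kap_mk h hτ, kap_mk h hτ]
  simp only [ex, h.cc_mk, ← Complex.exp_add, map_sub]
  congr 1
  push_cast
  ring

theorem Xt_mul (h : Fl F) (hE : E.IsP) {τ τ' : Aa r →ₗ[ℝ] ℝ} {s s' : ℝ} {a b : K →L[ℂ] K}
    (ha : a ∈ Xt F C E τ s) (hb : b ∈ Xt F C E τ' s') : a * b ∈ Xt F C E (s • τ + s' • τ') 1 := by
  have := Xm.mul hE (fun g => bd_ex s (meas_cc h τ _)) (fun g => bd_ex s' (meas_cc h τ' _)) ha hb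
  unfold Xt
  convert this using 2
  ext g y
  simp [ex, add_mul, Complex.exp_add]

/-- polar coordinates on the full cone -/
theorem emb (h : Fl F) (b : Module.Basis (Fin r) ℝ (Aa r)) : IsClosedEmbedding fun ζ : ZZ F =>
    (F.dir _ Finset.univ ζ, fun i => b.coord i (F.hq _ .id ζ)) := by
  haveI := h.isClosed_P Finset.univ
  have hc := (h.cont_dir h.Ht_N Finset.univ).prodMk (continuous_pi fun i =>
    (b.coord i).continuous_of_finiteDimensional.comp (h.cont_hq h.Ht_N))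
  refine .of_continuous_injective_isClosedMap hc (fun y y' e => h.cone_ext h.Ht_N
    (congrArg Prod.fst e) (b.ext_elem (congrFun (congrArg Prod.snd e)))) ?_
  refine (isProperMap_iff_isCompact_preimage.2 ⟨hc, fun Q hQ => ?_⟩).isClosedMap
  obtain ⟨R, hR⟩ := (hQ.image (b.equivFun.symm.toLinearMap.continuous_of_finiteDimensional.comp
    continuous_snd)).isBounded.exists_norm_le
  exact (h.cpt_hq h.Ht_N (h.prp_inj Function.injective_id) R).of_isClosed_subset
    (hQ.isClosed.preimage hc) fun y hy => hR _ ⟨_, hy, b.equivFun.symm_apply_apply _⟩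

/-- **LTD** -/
theorem lift_td (g : Gr F) (hL : Lat F) (hE : Eb F C E) {z : ℕ → G} {L : Aa r →ₗ[ℝ] Aa r}
    {θ₀ : POM (ZZ F) K} (h₀ : T0 F C z L E θ₀) : ∃ θ, Tx F C L E (NN F) LinearMap.id θ := by
  have h := g.fl
  have e := h.Ht_N
  obtain ⟨b, hb⟩ := hL
  have hτ : ∀ i, ∀ z ∈ F.Z, ∃ m : ℤ, b.coord i (F.ℓ z) = m := fun i z hz => (hb _).1 ⟨z, hz, rfl⟩ i
  haveI := Cn.nontriv C.s
  haveI := polishY h Finset.univ
  have bk := fun i => bd_kap h (hτ i)
  have hV : ∀ i, ∃ V : ℝ → K →L[ℂ] K, OP V ∧ (∀ s, V s ∈ Xt F C E (b.coord i) s) ∧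
      V (2 * Real.pi) = E.f (kap F (b.coord i)) := fun i => by
    obtain ⟨u, h1, h2⟩ := h₀.uni (b.coord i)
    obtain ⟨c, hc⟩ := (h2 _).2 _ (kap_mem h hE (hτ i))
    obtain ⟨χ, h3, h4⟩ := OP.norm_per h1 (by
      rw [E.star_f (bk i), ← hE.isP.mul _ _ (bk i).star (bk i), ← hE.isP.one]
      congr 1
      ext y
      rw [Pi.mul_apply, Pi.star_apply, Complex.star_def, Complex.conj_mul', kap, norm_ex]
      simp) hc
    exact ⟨_, h3, fun s => Xm.smul _ (h2 s).1, h4⟩
  choose V v1 v2 v3 using hV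
  obtain ⟨J, hJ, j1, j2⟩ := jointN hE.isP r V v1 (fun i j => comm_of (v1 i) (v1 j) (fun s t => by
    obtain ⟨u, -, h2⟩ := h₀.uni (s • b.coord i + t • b.coord j)
    obtain ⟨c, hc⟩ := (h2 1).2 _ (Xt_mul h hE.isP (v2 i s) (v2 j t))
    obtain ⟨d, hd⟩ := (h2 1).2 _ (add_comm (t • b.coord j) _ ▸ Xt_mul h hE.isP (v2 j t) (v2 i s))
    refine ⟨c / d, by rw [hc, hd, smul_smul, div_mul_cancel₀ _ fun h0 => by
      simpa [h0, (v1 _).norm, C.s.nΩ] using congrArg (fun T : K →L[ℂ] K => ‖T C.s.Ω‖) hd]⟩) fun t => by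
      rw [v3, (v2 j t).2.1 _ (bk i)]) fun i t => (v2 i t).2.1
  have em := (emb h b).measurableEmbedding
  have mx : ∀ i, Measurable fun ζ : ZZ F => b.coord i (F.hq _ .id ζ) := fun i =>
    (measurable_pi_apply i).comp em.measurable.snd
  have key : ∀ f, Bd f → (J.map _ em.measurable_invFun).f (f ∘ fun ζ : ZZ F =>
      (F.dir _ Finset.univ ζ, fun i => b.coord i (F.hq _ .id ζ))) = J.f f := fun f hf => by
    refine J.congr_ae ((hf.comp em.measurable).comp em.measurable_invFun) hf fun ξ => ?_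
    have h1 : ∀ i, ∀ᵐ p ∂J.ν ξ, ex (2 * Real.pi) (fun p => p.2 i) p = kap F (b.coord i) p.1 :=
      fun i => by
      have b1 := bd_ex (2 * Real.pi) (D := fun p : YY F × (Fin r → ℝ) => p.2 i)
        ((measurable_pi_apply i).comp measurable_snd)
      have b2 := bd_comp (bk i) (measurable_fst (β := Fin r → ℝ))
      have h2 := hJ.enorm_sq (bd_sub b1 b2) ξ
      rw [J.sub b1 b2, j1 _ (bk i), ← v3, ← j2, sub_self, zero_apply, enorm_zero,
        zero_pow two_ne_zero, eq_comm,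
        lintegral_eq_zero_iff ((bd_sub b1 b2).meas.enorm.pow_const 2)] at h2
      exact h2.mono fun p hp => sub_eq_zero.1 (by simpa using hp)
    filter_upwards [ae_all_iff.2 h1] with p hp
    obtain ⟨x, hx⟩ := QuotientGroup.mk_surjective p.1
    obtain ⟨w, hw, h2⟩ := (hb (b.equivFun.symm p.2 - F.co (F.ht x))).2 fun i => by
      have h3 := hp i
      rw [← hx, kap_mk h (hτ i)] at h3
      obtain ⟨m, hm⟩ := Complex.exp_eq_exp_iff_exists_int.1 h3
      refine ⟨m, ?_⟩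
      rw [map_sub, Finsupp.sub_apply, ← b.equivFun_apply, b.equivFun.apply_symm_apply]
      refine Complex.ofReal_injective (mul_left_cancel₀ Complex.two_pi_I_ne_zero ?_)
      simp only [b.coord_apply] at hm
      push_cast at hm ⊢
      linear_combination hm
    have h3 : p = (F.dir (NN F) Finset.univ ((x * w : G) : ZZ F),
        fun i => b.coord i (F.hq (NN F) .id ((x * w : G) : ZZ F))) := Prod.ext (by
      rw [h.dir_mk e, QuotientGroup.mk_mul_of_mem _ (h.z_mem_P hw _), hx]) (by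
      rw [h.hq_mk e, h.co_ht_P (h.z_mem_P hw _), h2, add_sub_cancel]
      exact (b.equivFun.apply_symm_apply _).symm)
    rw [h3]
    simp only [Function.comp_apply, em.leftInverse_invFun _]
  have hP := hJ.map em.measurable_invFun
  generalize J.map _ em.measurable_invFun = θ at key hP
  have e1 : ∀ φ, Bd φ → θ.f (φ ∘ F.dir _ _) = E.f φ := fun φ hφ =>
    (key _ (hφ.comp measurable_fst)).trans (j1 φ hφ)
  have e2 : ∀ i t, θ.f (ex t fun ζ => b.coord i (F.hq _ .id ζ)) = V i t := fun i t =>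
    (key _ (bd_ex t ((measurable_pi_apply i).comp measurable_snd))).trans (j2 i t)
  have md := (h.cont_dir e Finset.univ).measurable
  have iθ : Inv C F.Up θ := by
    refine ⟨fun f hf w hw => (tw em hP hP (fun φ hφ => ?_) (fun i t => ?_) f hf).symm,
      fun s => ext em (isP_tr C.t s hP) (hP.map (measurable_const_smul s⁻¹)) (fun φ hφ => ?_)
        fun i t => ?_, fun s hs => ext em (isP_tr C.s s hP) hP (fun φ hφ => ?_) fun i t => ?_⟩
    · rw [e1 φ hφ, hE.inv.cm φ hφ w hw]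
    · rw [e2, (v2 i t).1 w hw]
    · rw [tr_f, e1 φ hφ, hE.inv.cov s φ hφ, ← e1 _ (hφ.comp (measurable_const_smul _)),
        map_f _ (measurable_const_smul _)]
      simp only [Function.comp_def, h.dir_smul e]
    · have b' := bd_ex t (meas_cc h (b.coord i) s⁻¹)
      rw [tr_f, e2, (v2 i t).2.2.2, map_f _ (measurable_const_smul _), ← e2, ← e1 _ b',
        ← hP.mul _ _ (bd_comp b' md) (bd_ex t (mx i))]
      congr 1
      ext ζ
      simp [ex, h.hq_smul e, mul_add, add_mul, Complex.exp_add]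
    · rw [tr_f, e1 φ hφ, hE.inv.inv s (h.up_mem_P hs _) φ hφ]
    · rw [tr_f, e2, (v2 i t).2.2.1 s hs]
  refine ⟨θ, hP, iθ, e1, fun τ => mem_Xt h e hP iθ e1 τ
    (τ.continuous_of_finiteDimensional.comp (h.cont_hq e)).measurable, fun p hp q hq e3 =>
      ext em (isP_tr C.s p hP) (hP.map (cont_rt (h.Ht_nrm e hq)).measurable) (fun φ hφ => ?_)
        fun i t => ?_⟩
  · rw [tr_f, e1 φ hφ, hE.inv.inv p hp φ hφ, ← e1 φ hφ, map_f]
    simp only [Function.comp_def, h.dir_rt e _ hq]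
  · rw [tr_f, e2, h₀.spd _ t p hp _ (v2 i t), ← e2, map_f, ← θ.smul _ (bd_ex t (mx i))]
    congr 1
    ext ζ
    simp only [ex, Function.comp_apply, h.hq_rt e hq, show F.ℓ q = _ from e3, Pi.smul_apply, smul_eq_mul,
      ← Complex.exp_add, map_add, LinearMap.id_apply]
    congr 1
    push_cast
    ring

end Vale.Agent.P092LT
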