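import Vale.Agent.P092TH.Hts

/-!
P092 (helper26): several commuting one parameter groups.
-/

set_option linter.all false

open scoped InnerProductSpace
open MeasureTheory Filter Topology ContinuousLinearMap Set

namespace Vale.Agent.P092LT

open Vale.Agent.P092CP Vale.Agent.P092RD Vale.Agent.P092RD.POM Vale.Agent.P092SB

variable {K : Type} [NormedAddCommGroup K] [InnerProductSpace ℂ K] [CompleteSpace K]
  {Y Z : Type} [MeasurableSpace Y] [m : MeasurableSpace Z] {n : ℕ}

/-- the direction and the exponentials of the heights generate -/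
theorem tw {d : Z → Y} {x : Z → Fin n → ℝ} (e : MeasurableEmbedding fun z => (d z, x z))
    {θ θ' : POM Z K} (hθ : θ.IsP) (hθ' : θ'.IsP) {T : K →L[ℂ] K}
    (h1 : ∀ φ, Bd φ → T * θ.f (φ ∘ d) = θ'.f (φ ∘ d) * T)
    (h2 : ∀ i t, T * θ.f (ex t fun z => x z i) = θ'.f (ex t fun z => x z i) * T) :
    ∀ F, Bd F → T * θ.f F = θ'.f F * T := by
  have md : Measurable d := e.measurable.fst
  have mx : ∀ i, Measurable fun z => x z i := fun i => (measurable_pi_apply i).comp e.measurable.snd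
  let s := {A | MeasurableSet A ∧ T * θ.P A = θ'.P A * T}
  refine (cls_tw θ θ' T).of_pi (s := s) (le_antisymm ?_ (MeasurableSpace.generateFrom_le
    fun A hA => hA.1)) (fun A hA B hB _ => ⟨hA.1.inter hB.1, ?_⟩) (h1 1 Bd.one) fun A hA => hA.2
  · rw [← e.comap_eq]
    refine Measurable.comap_le (Measurable.prodMk (fun A hA => ?_)
      (@measurable_pi_lambda _ _ _ (_) _ _ fun i A hA => ?_))
    · exact MeasurableSpace.measurableSet_generateFrom ⟨md hA, h1 _ (Bd.ind hA)⟩
    · exact MeasurableSpace.measurableSet_generateFrom ⟨mx i hA,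
        tw_of_ex (θ.map _ (mx i)) (θ'.map _ (mx i)) T (h2 i) (Bd.ind hA)⟩
  · rw [hθ.P_inter hA.1 hB.1, hθ'.P_inter hA.1 hB.1, ← mul_assoc, hA.2, mul_assoc, hB.2, mul_assoc]

theorem ext {d : Z → Y} {x : Z → Fin n → ℝ} (e : MeasurableEmbedding fun z => (d z, x z))
    {θ θ' : POM Z K} (hθ : θ.IsP) (hθ' : θ'.IsP) (h1 : ∀ φ, Bd φ → θ.f (φ ∘ d) = θ'.f (φ ∘ d))
    (h2 : ∀ i t, θ.f (ex t fun z => x z i) = θ'.f (ex t fun z => x z i)) (F : Z → ℂ) (hF : Bd F) :
    θ.f F = θ'.f F := by
  simpa using tw e hθ hθ' (T := 1) (by simpa using h1) (by simpa using h2) F hF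

/-- the joint measure of a calculus and of commuting one parameter groups -/
theorem jointN [StandardBorelSpace Y] [Nonempty Y] {E : POM Y K} (hE : E.IsP) :
    ∀ (n : ℕ) (V : Fin n → ℝ → K →L[ℂ] K), (∀ i, OP (V i)) →
      (∀ i j s t, V i s * V j t = V j t * V i s) →
      (∀ i t φ, Bd φ → V i t * E.f φ = E.f φ * V i t) →
      ∃ J : POM (Y × (Fin n → ℝ)) K, J.IsP ∧ (∀ φ, Bd φ → J.f (φ ∘ Prod.fst) = E.f φ) ∧
        ∀ i t, J.f (ex t fun p => p.2 i) = V i t
  | 0, V, _, _, _ => ⟨E.map (fun y => (y, 0)) measurable_prodMk_right, hE.map _, fun _ _ => rfl,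
      fun i => i.elim0⟩
  | n + 1, V, h, hc, hc' => by
    obtain ⟨J, a, b, c⟩ := jointN hE n (fun i => V i.succ) (fun i => h _) (fun i j => hc _ _)
      fun i => hc' _
    obtain ⟨J', a', b', c'⟩ := joint_op a (h 0) fun A t hA => (tw MeasurableEmbedding.id a a
      (fun φ hφ => by rw [b φ hφ, hc' 0 t φ hφ]) (fun i s => by rw [c, hc]) _ (Bd.ind hA)).symm
    have mr : Measurable fun q : (Y × (Fin n → ℝ)) × ℝ =>
        (q.1.1, (Fin.cons q.2 q.1.2 : Fin (n + 1) → ℝ)) :=
      measurable_fst.fst.prodMk (measurable_pi_lambda _ fun i => Fin.cases measurable_snd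
        (fun i => (measurable_pi_apply i).comp measurable_fst.snd) i)
    refine ⟨J'.map _ mr, a'.map mr, fun φ hφ => (b' _ (hφ.comp measurable_fst)).trans (b φ hφ),
      fun i t => Fin.cases (c' t) (fun i => ?_) i⟩
    exact (b' _ (bd_ex t ((measurable_pi_apply i).comp measurable_snd))).trans (c i t)

theorem smul_inj {u : K →L[ℂ] K} {ξ : K} (h : ‖u ξ‖ = 1) {c d : ℂ} (e : c • u = d • u) : c = d := by
  rw [← sub_eq_zero, ← sub_smul] at e
  have := congrArg (fun T : K →L[ℂ] K => ‖T ξ‖) e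
  simp only [smul_apply, norm_smul, h, zero_apply, norm_zero, mul_one, norm_eq_zero] at this
  exact sub_eq_zero.1 this

/-- projectively commuting groups commute if one of them has a period -/
theorem comm_of [Nontrivial K] {U V : ℝ → K →L[ℂ] K} (hU : OP U) (hV : OP V)
    (hc : ∀ s t, ∃ c : ℂ, U s * V t = c • (V t * U s))
    (h0 : ∀ t, U (2 * Real.pi) * V t = V t * U (2 * Real.pi)) (s t : ℝ) : U s * V t = V t * U s := by
  obtain ⟨ξ, hξ⟩ := exists_norm_eq K zero_le_one
  choose c hc using hc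
  have n1 : ∀ s t, ‖(V t * U s) ξ‖ = 1 := fun s t => by rw [mapp, hV.norm, hU.norm, hξ]
  have e1 : ∀ s t, c s t = ⟪V t (U s ξ), U s (V t ξ)⟫_ℂ := fun s t => by
    rw [← mapp, ← mapp, hc, smul_apply, inner_smul_right, inner_self_eq_norm_sq_to_K, n1]
    simp
  have h1 : ∀ t, ∃ k : ℤ, c s t = Complex.exp (s * k * Complex.I) := fun t => by
    obtain ⟨k, hk⟩ := P092SB.char (χ := fun s => c s t) (by
      simp only [e1]
      exact ((V t).continuous.comp (hU.cont ξ)).inner (hU.cont _)) (fun s s' => smul_inj (n1 _ t) (by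
        rw [← hc, hU.add, mul_assoc, hc, mul_smul_comm, ← mul_assoc, hc, smul_mul_assoc, smul_smul,
          mul_comm (c s' t), mul_assoc])) fun s => by
      have := congrArg (fun T : K →L[ℂ] K => ‖T ξ‖) (hc s t)
      simp only [smul_apply, norm_smul, n1, mul_one] at this
      rw [← this, mapp, hU.norm, hV.norm, hξ]
    obtain ⟨j, hj⟩ := Complex.exp_eq_one_iff.1 ((hk _).symm.trans
      (smul_inj (n1 _ t) ((hc _ t).symm.trans ((h0 t).trans (one_smul _ _).symm))))
    refine ⟨j, (hk s).trans ?_⟩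
    congr 3
    have h2 : (2 * Real.pi * Complex.I : ℂ) ≠ 0 := Complex.two_pi_I_ne_zero
    refine mul_left_cancel₀ h2 ?_
    push_cast at hj
    linear_combination hj
  have h2 : (range (c s)).Subsingleton := ((countable_range fun k : ℤ =>
    Complex.exp (s * k * Complex.I)).mono (by
      rintro _ ⟨t, rfl⟩
      exact (h1 t).imp fun k e => e.symm)).isTotallyDisconnected _ subset_rfl (isPreconnected_range (by
    rw [funext (e1 s)]
    exact (hV.cont _).inner ((U s).continuous.comp (hV.cont ξ))))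
  rw [hc, h2 ⟨t, rfl⟩ ⟨0, rfl⟩, smul_inj (n1 s 0) (c := c s 0) (d := 1) (by
    rw [← hc, hV.zero, mul_one, one_mul, one_smul]), one_smul]

/-- normalisation of the period -/
theorem OP.norm_per [Nontrivial K] {U : ℝ → K →L[ℂ] K} (hU : OP U) {a : K →L[ℂ] K}
    (ha : star a * a = 1) {c : ℂ} (e : a = c • U (2 * Real.pi)) :
    ∃ χ : ℝ → ℂ, OP (fun t => χ t • U t) ∧ χ (2 * Real.pi) • U (2 * Real.pi) = a := by
  obtain ⟨ξ, hξ⟩ := exists_norm_eq K zero_le_one
  have h1 : ‖c‖ = 1 := by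
    have := norm_unit ha ξ
    rwa [e, smul_apply, norm_smul, hU.norm, hξ, mul_one] at this
  let x := c.arg / (2 * Real.pi)
  refine ⟨fun t => ex t (fun _ : Unit => x) (), ⟨?_, fun s t => ?_, fun t => ?_, fun η => ?_⟩, ?_⟩
  · simp [ex, hU.zero]
  · simp only [P092TH.ex_add', hU.add, smul_mul_smul_comm, Pi.mul_apply]
  · rw [star_smul, smul_mul_smul_comm, hU.unit, Complex.star_def, Complex.conj_mul', norm_ex]
    simp
  · simp only [smul_apply]
    exact (by unfold ex; fun_prop : Continuous fun t => ex t (fun _ : Unit => x) ()).smul (hU.cont η)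
  · simp only [ex]
    rw [e, ← Complex.ofReal_mul, mul_div_cancel₀ _ Real.two_pi_pos.ne']
    conv_rhs => rw [← Complex.norm_mul_exp_arg_mul_I c, h1]
    simp

end Vale.Agent.P092LT
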